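import Vale.Agent.P246.Dis.H302.ExA

/-! # Block A1, part 4: homomorphisms out of `A`, abelianisation -/

namespace Vale.Agent.P246.Dis

open Vale.Agent.P246 Vale.Agent.P246.T

/-- homomorphisms out of `A` from the three simple relations -/
theorem exists_liftA {B : Type} [Group B] (a b t : B)
    (h1 : a * b * a * b * a * b = b * a * a) (h2 : t * b * t⁻¹ = a * a * a) (h3 : b * b = 1) :
    ∃ θ : GA →* B, θ (xA 0) = a ∧ θ (xA 1) = b ∧ θ (xA 2) = t := by
  have h : ∀ r ∈ Set.range relA, FreeGroup.lift ![a, b, t] r = 1 := by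
    rintro _ ⟨j, rfl⟩
    fin_cases j
    · refine (lift_wR a b t).trans ?_
      rw [h1]; group
    · refine (lift_wS a b t h3).trans ?_
      rw [h2]; group
    · exact (lift_wB2 a b t).trans h3
  refine ⟨PresentedGroup.toGroup h, ?_, ?_, ?_⟩ <;>
    exact PresentedGroup.toGroup.of h

/-- two homomorphisms out of `A` which agree on the generators are equal -/
theorem hom_extA {B : Type*} [Monoid B] {f g : GA →* B} (h : ∀ i, f (xA i) = g (xA i)) :
    f = g := by
  have h2 : ∀ z : FreeGroup (Fin 3), f (FreeGroup.lift xA z) = g (FreeGroup.lift xA z) := by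
    intro z
    induction z using FreeGroup.induction_on with
    | C1 => simp
    | of i => simpa using h i
    | inv_of i hi =>
      rw [map_inv, FreeGroup.lift_apply_of]
      have e1 : f (xA i)⁻¹ * f (xA i) = 1 := by rw [← map_mul, inv_mul_cancel, map_one]
      have e2 : g (xA i) * g (xA i)⁻¹ = 1 := by rw [← map_mul, mul_inv_cancel, map_one]
      calc f (xA i)⁻¹ = f (xA i)⁻¹ * (g (xA i) * g (xA i)⁻¹) := by rw [e2, mul_one]
        _ = (f (xA i)⁻¹ * f (xA i)) * g (xA i)⁻¹ := by rw [← h i, mul_assoc]
        _ = g (xA i)⁻¹ := by rw [e1, one_mul]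
    | mul u v hu hv => rw [map_mul, map_mul, map_mul, hu, hv]
  ext z
  obtain ⟨w, rfl⟩ := PrA.surj z
  exact h2 w

/-- `t b t⁻¹ = a³` in `A` -/
theorem tbt_cube : xA 2 * xA 1 * (xA 2)⁻¹ = xA 0 * xA 0 * xA 0 := by
  have h : FreeGroup.lift xA (relA 1) = xA 2 * xA 1 * (xA 2)⁻¹ * (xA 0 * xA 0 * xA 0)⁻¹ := by
    have h2 := lift_wS (xA 0) (xA 1) (xA 2) b_sq
    have h3 : (![xA 0, xA 1, xA 2] : Fin 3 → GA) = xA := by
      funext i; fin_cases i <;> rfl
    rwa [h3] at h2
  rw [rel_one] at h
  exact (mul_inv_eq_one.1 h.symm)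

/-- `(a b)³ = b a²` in `A` -/
theorem aba : xA 0 * xA 1 * xA 0 * xA 1 * xA 0 * xA 1 = xA 1 * xA 0 * xA 0 := by
  have h := hrA 1
  simpa only [one_mul] using h

/-- the homomorphism onto `ℤ`: `a, b ↦ 0`, `t ↦ 1` -/
noncomputable def phiA : GA →* Multiplicative ℤ :=
  (exists_liftA (B := Multiplicative ℤ) 1 1 (Multiplicative.ofAdd 1) rfl (by group) rfl).choose

theorem phiA_a : phiA (xA 0) = 1 :=
  (exists_liftA (B := Multiplicative ℤ) 1 1 (Multiplicative.ofAdd 1) rfl
    (by group) rfl).choose_spec.1

theorem phiA_b : phiA (xA 1) = 1 :=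
  (exists_liftA (B := Multiplicative ℤ) 1 1 (Multiplicative.ofAdd 1) rfl
    (by group) rfl).choose_spec.2.1

theorem phiA_t : phiA (xA 2) = Multiplicative.ofAdd 1 :=
  (exists_liftA (B := Multiplicative ℤ) 1 1 (Multiplicative.ofAdd 1) rfl
    (by group) rfl).choose_spec.2.2

theorem phiA_surj : Function.Surjective phiA := by
  intro n
  refine ⟨xA 2 ^ (Multiplicative.toAdd n), ?_⟩
  rw [map_zpow, phiA_t]
  apply Multiplicative.toAdd.injective
  simp

/-- every homomorphism from `A` to a commutative group kills `a` and `b` -/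
theorem hom_comm {B : Type*} [CommGroup B] (f : GA →* B) : f (xA 0) = 1 ∧ f (xA 1) = 1 := by
  have h1 : f (xA 1) * f (xA 1) = 1 := by rw [← map_mul, b_sq, map_one]
  have h2 : f (xA 1) = f (xA 0) * f (xA 0) * f (xA 0) := by
    have h := congrArg f tbt_cube
    rw [map_mul, map_mul, map_inv, map_mul, map_mul, mul_comm (f (xA 2)), mul_assoc,
      mul_inv_cancel, mul_one] at h
    exact h
  have h3 : f (xA 0) * f (xA 1) * f (xA 1) = 1 := by
    have h := congrArg f aba
    simp only [map_mul] at h
    generalize f (xA 0) = x at *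
    generalize f (xA 1) = y at *
    have h4 : x * y * x * y * x * y = (y * x * x) * (x * y * y) := by
      simp only [mul_comm, mul_left_comm]
    rw [h4] at h
    exact mul_eq_left.1 h
  have h4 : f (xA 0) = 1 := by rwa [mul_assoc, h1, mul_one] at h3
  exact ⟨h4, by rw [h2, h4]; simp⟩

/-- every homomorphism from `A` to a commutative group factors through `phiA` -/
theorem hom_factor {B : Type*} [CommGroup B] (f : GA →* B) (x : GA) :
    f x = f (xA 2) ^ (Multiplicative.toAdd (phiA x)) := by
  obtain ⟨ha, hb⟩ := hom_comm f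
  let g : GA →* B :=
    { toFun := fun x => f (xA 2) ^ (Multiplicative.toAdd (phiA x))
      map_one' := by simp
      map_mul' := fun x y => by simp [zpow_add] }
  have h : f = g := by
    apply hom_extA
    intro i
    fin_cases i
    · change f (xA 0) = f (xA 2) ^ (Multiplicative.toAdd (phiA (xA 0)))
      rw [ha, phiA_a]; simp
    · change f (xA 1) = f (xA 2) ^ (Multiplicative.toAdd (phiA (xA 1)))
      rw [hb, phiA_b]; simp
    · change f (xA 2) = f (xA 2) ^ (Multiplicative.toAdd (phiA (xA 2)))
      rw [phiA_t]; simp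
  exact DFunLike.congr_fun h x

/-- two homomorphisms from `A` to a commutative group which agree on `t` are equal -/
theorem hom_ext_t {B : Type*} [CommGroup B] {f g : GA →* B} (h : f (xA 2) = g (xA 2)) : f = g := by
  ext x
  rw [hom_factor f, hom_factor g, h]

/-- the kernel of `phiA` is the commutator subgroup -/
theorem ker_phiA : phiA.ker = commutator GA := by
  apply le_antisymm
  · intro x hx
    rw [MonoidHom.mem_ker] at hx
    have h := hom_factor (Abelianization.of (G := GA)) x
    rw [hx, toAdd_one, zpow_zero] at h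
    exact (QuotientGroup.eq_one_iff x).1 h
  · exact Abelianization.commutator_subset_ker phiA

/-- the abelianisation of `A` is infinite cyclic -/
theorem abA : Nonempty (Abelianization GA ≃* Multiplicative ℤ) := by
  have h : Function.Bijective (Abelianization.lift phiA) := by
    constructor
    · rw [injective_iff_map_eq_one]
      intro x hx
      obtain ⟨y, rfl⟩ := QuotientGroup.mk_surjective x
      have h2 : phiA y = 1 := hx
      have h3 : y ∈ commutator GA := by
        rw [← ker_phiA]; exact h2
      exact (QuotientGroup.eq_one_iff y).2 h3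
    · intro n
      obtain ⟨x, hx⟩ := phiA_surj n
      exact ⟨Abelianization.of x, hx⟩
  exact ⟨MulEquiv.ofBijective _ h⟩

end Vale.Agent.P246.Dis
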