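import Vale.Agent.P246.Dis.H302.Fox
import Vale.Agent.P246.T.Spec2
import Mathlib.GroupTheory.PresentedGroup
import Mathlib.GroupTheory.Abelianization.Defs

/-! # Block A1, part 3: the group `A`, its presentation and the identity among its relators -/

namespace Vale.Agent.P246.Dis

open Vale.Agent.P246 Vale.Agent.P246.T

/-- `r = a b a b a b a⁻¹ a⁻¹ b⁻¹` (letters `a = 0`, `b = 1`, `t = 2`) -/
def wR : List (Fin 3 × Bool) :=
  [(0, true), (1, true), (0, true), (1, true), (0, true), (1, true), (0, false), (0, false),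
    (1, false)]

/-- `c'`: the reduced word of `a³ ρ`, `ρ` a product of conjugates of `b²` -/
def wC : List (Fin 3 × Bool) :=
  [(0, true), (0, true), (0, true), (0, true), (1, true), (0, true), (1, true), (1, true),
    (0, false), (1, false), (0, false), (1, true), (0, true), (0, true), (1, true), (1, true),
    (0, false), (1, true), (0, true), (0, true), (1, true), (1, true), (0, false), (0, false),
    (1, false), (0, false), (1, false)]

/-- `c'⁻¹` -/
def wC' : List (Fin 3 × Bool) :=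
  [(1, true), (0, true), (1, true), (0, true), (0, true), (1, false), (1, false), (0, false),
    (0, false), (1, false), (0, true), (1, false), (1, false), (0, false), (0, false), (1, false),
    (0, true), (1, true), (0, true), (1, false), (1, false), (0, false), (1, false), (0, false),
    (0, false), (0, false), (0, false)]

/-- `t b t⁻¹` -/
def wT : List (Fin 3 × Bool) := [(2, true), (1, true), (2, false)]

/-- `s = t b t⁻¹ c'⁻¹` -/
def wS : List (Fin 3 × Bool) := wT ++ wC'

/-- `b²` -/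
def wB2 : List (Fin 3 × Bool) := [(1, true), (1, true)]

/-- the three relators `r`, `s`, `b²` -/
def relA : Fin 3 → FreeGroup (Fin 3) :=
  ![FreeGroup.mk wR, FreeGroup.mk wS, FreeGroup.mk wB2]

/-- the group `A = ⟨a, b, t | r, t b t⁻¹ c'⁻¹, b²⟩` -/
abbrev GA : Type := PresentedGroup (Set.range relA)

/-- its generators -/
def xA : Fin 3 → GA := fun i => PresentedGroup.of i

theorem lift_xA : FreeGroup.lift xA = PresentedGroup.mk (Set.range relA) := by
  apply FreeGroup.ext_hom
  intro i
  rw [FreeGroup.lift_apply_of]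
  rfl

/-- the presentation of `A` with three generators and three relators -/
def PrA : FinPresentation GA where
  gens := 3
  rels := 3
  x := xA
  r := relA
  surj := by
    rw [lift_xA]
    exact PresentedGroup.mk_surjective _
  ker_eq := by
    rw [lift_xA]
    exact QuotientGroup.ker_mk' _

theorem rel_one (j : Fin 3) : FreeGroup.lift xA (relA j) = 1 := by
  have h : relA j ∈ (FreeGroup.lift PrA.x).ker := by
    rw [PrA.ker_eq]
    exact Subgroup.subset_normalClosure ⟨j, rfl⟩
  exact h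

theorem wv_wR : wv xA wR = 1 := by
  rw [← lift_mk_eq_wv]; exact rel_one 0

theorem wv_wS : wv xA wS = 1 := by
  rw [← lift_mk_eq_wv]; exact rel_one 1

theorem wv_wB2 : wv xA wB2 = 1 := by
  rw [← lift_mk_eq_wv]; exact rel_one 2

theorem hbA (g : GA) : g * xA 1 * xA 1 = g := by
  have h := wv_wB2
  simp only [wv, wB2, lv, if_true, mul_one] at h
  rw [mul_assoc, h, mul_one]

theorem hrA (g : GA) :
    g * xA 0 * xA 1 * xA 0 * xA 1 * xA 0 * xA 1 = g * xA 1 * xA 0 * xA 0 := by
  have h := wv_wR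
  simp only [wv, wR, lv, if_true, mul_one, Bool.false_eq_true, if_false] at h
  have h2 : xA 0 * xA 1 * xA 0 * xA 1 * xA 0 * xA 1 = xA 1 * xA 0 * xA 0 := by
    have h3 : (xA 0 * xA 1 * xA 0 * xA 1 * xA 0 * xA 1) * (xA 1 * xA 0 * xA 0)⁻¹ = 1 := by
      rw [← h]; group
    exact mul_inv_eq_one.1 h3
  calc g * xA 0 * xA 1 * xA 0 * xA 1 * xA 0 * xA 1
      = g * (xA 0 * xA 1 * xA 0 * xA 1 * xA 0 * xA 1) := by group
    _ = g * (xA 1 * xA 0 * xA 0) := by rw [h2]
    _ = _ := by group

/-- signed indices of `y` -/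
def yL : List (Bool × ℕ) :=
  [(true, 0), (true, 1), (false, 15), (false, 16), (true, 5), (true, 3), (true, 13), (true, 23),
    (false, 12), (true, 6), (true, 32), (true, 34), (true, 21), (false, 45)]

/-- the element `y` of `ℤ[A]` -/
noncomputable def yA : ZG GA := sval xA yL

/-- the Fox identity `D(c' c') = y D(r)` -/
theorem fox_cc (k : Fin 3) : foxWord xA (wC ++ wC) k = yA * foxWord xA wR k := by
  have h1 := fx_spec xA hrA hbA k (wC ++ wC) (by decide) 0 (by norm_num)
  have h2 := fxs_spec xA hrA hbA k wR (by decide) yL (by decide)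
  have h3 : (elt (tb (xA 0) (xA 1) 0) : ZG GA) = 1 := rfl
  rw [h3, one_mul] at h1
  rw [h1, yA, h2]
  clear h1 h2 h3
  apply sval_congr
  · revert k; decide +kernel
  · revert k; decide +kernel
  · revert k; decide +kernel

theorem wv_wT : wv xA wT = xA 2 * xA 1 * (xA 2)⁻¹ := by
  simp [wv, wT, lv, mul_assoc]

theorem wv_wC' : wv xA wC' = (wv xA wC)⁻¹ := by
  simp [wv, wC, wC', lv, mul_assoc]

/-- the value of `c'` -/
def cA : GA := wv xA wC

theorem tbt : xA 2 * xA 1 * (xA 2)⁻¹ = cA := by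
  have h := wv_wS
  rw [wS, wv_append, wv_wT, wv_wC'] at h
  exact mul_inv_eq_one.1 h

theorem wC'_eq : wC' = FreeGroup.invRev wC := by decide

theorem fox_wS (k : Fin 3) : foxWord xA wS k = foxWord xA wT k - foxWord xA wC k := by
  rw [wS, foxWord_append', wC'_eq, foxWord_invRev, wv_wT, tbt]
  have h : (elt cA : ZG GA) * elt (wv xA wC)⁻¹ = 1 := by
    rw [elt_mul_elt, cA, mul_inv_cancel]; rfl
  rw [mul_neg, ← mul_assoc, h, one_mul, sub_eq_add_neg]

theorem fox_wT (k : Fin 3) : foxWord xA wT k =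
    (if k = 2 then 1 else 0) + elt (xA 2) * (if k = 1 then 1 else 0)
      - elt cA * (if k = 2 then 1 else 0) := by
  rw [wT, foxWord_true', foxWord_true', foxWord_false', foxWord_nil', ← tbt, ← elt_mul_elt,
    ← elt_mul_elt]
  simp only [Pi.zero_apply]
  noncomm_ring

theorem fox_wB2 (k : Fin 3) : foxWord xA wB2 k = (1 + elt (xA 1)) * (if k = 1 then 1 else 0) := by
  rw [wB2, foxWord_true', foxWord_true', foxWord_nil']
  simp only [Pi.zero_apply]
  noncomm_ring

theorem fox_wCC (k : Fin 3) : foxWord xA (wC ++ wC) k = (1 + elt cA) * foxWord xA wC k := by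
  rw [foxWord_append', ← cA]
  noncomm_ring

theorem b_sq : xA 1 * xA 1 = 1 := by
  have h := hbA 1
  rwa [one_mul] at h

theorem cA_sq : cA * cA = 1 := by
  rw [← tbt]
  have h : xA 2 * xA 1 * (xA 2)⁻¹ * (xA 2 * xA 1 * (xA 2)⁻¹) = xA 2 * (xA 1 * xA 1) * (xA 2)⁻¹ := by
    group
  rw [h, b_sq, mul_one, mul_inv_cancel]

theorem cA_t : cA * xA 2 = xA 2 * xA 1 := by
  rw [← tbt]; group

/-- the coefficients of the identity among the relators -/
noncomputable def betaA : Fin 3 → ZG GA :=
  ![-(elt (xA 2)⁻¹ * yA), -(elt (xA 2)⁻¹ * (1 + elt cA)), 1]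

theorem betaA_two : betaA 2 = 1 := rfl

/-- `t D(b²) = (1 + c') D(s) + y D(r)` -/
theorem key (k : Fin 3) : elt (xA 2) * foxWord xA wB2 k =
    (1 + elt cA) * foxWord xA wS k + yA * foxWord xA wR k := by
  rw [← fox_cc, fox_wCC, fox_wS, fox_wT, fox_wB2]
  have h1 : (elt cA : ZG GA) * elt cA = 1 := by rw [elt_mul_elt, cA_sq]; rfl
  have h2 : (elt cA : ZG GA) * elt (xA 2) = elt (xA 2) * elt (xA 1) := by
    rw [elt_mul_elt, elt_mul_elt, cA_t]
  generalize (if k = 2 then (1 : ZG GA) else 0) = e2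
  generalize (if k = 1 then (1 : ZG GA) else 0) = e1
  generalize foxWord xA wC k = d
  have h3 : (1 + elt cA : ZG GA) * (e2 + elt (xA 2) * e1 - elt cA * e2 - d) + (1 + elt cA) * d
      = e2 + elt (xA 2) * e1 + (elt cA * elt (xA 2)) * e1 - (elt cA * elt cA) * e2 := by
    noncomm_ring
  rw [h3, h1, h2]
  noncomm_ring

theorem key' (k : Fin 3) : foxWord xA wB2 k =
    elt (xA 2)⁻¹ * ((1 + elt cA) * foxWord xA wS k + yA * foxWord xA wR k) := by
  rw [← key, ← mul_assoc, elt_mul_elt, inv_mul_cancel, elt_one_eq, one_mul]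

theorem toWord_rel (j : Fin 3) : (relA j).toWord = ![wR, wS, wB2] j := by
  revert j; decide

theorem fox2_betaA : fox2 PrA betaA = 0 := by
  have h : fox2 PrA betaA = ∑ j : Fin 3, betaA j • foxWord xA (relA j).toWord :=
    Fintype.linearCombination_apply (ZG GA) (fun j : Fin 3 => foxWord xA (relA j).toWord) betaA
  rw [h, Fin.sum_univ_three, toWord_rel, toWord_rel, toWord_rel]
  funext k
  change betaA 0 * foxWord xA wR k + betaA 1 * foxWord xA wS k + betaA 2 * foxWord xA wB2 k = 0
  rw [key']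
  change -(elt (xA 2)⁻¹ * yA) * foxWord xA wR k + -(elt (xA 2)⁻¹ * (1 + elt cA)) * foxWord xA wS k
    + 1 * (elt (xA 2)⁻¹ * ((1 + elt cA) * foxWord xA wS k + yA * foxWord xA wR k)) = 0
  noncomm_ring

/-- the last coordinate -/
noncomputable def lamA : (Fin 3 → ZG GA) →ₗ[ZG GA] ZG GA := LinearMap.proj 2

theorem lamA_betaA : lamA betaA = 1 := rfl

/-! ### Homomorphisms out of `A` -/

section Lift

variable {B : Type} [Group B] (a b t : B)

theorem lift_wR : FreeGroup.lift ![a, b, t] (relA 0) = a * b * a * b * a * b * a⁻¹ * a⁻¹ * b⁻¹ := by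
  change FreeGroup.lift ![a, b, t] (FreeGroup.mk wR) = _
  rw [lift_mk_eq_wv]
  simp [wv, wR, lv, mul_assoc]

theorem lift_wS (hb : b * b = 1) :
    FreeGroup.lift ![a, b, t] (relA 1) = t * b * t⁻¹ * (a * a * a)⁻¹ := by
  change FreeGroup.lift ![a, b, t] (FreeGroup.mk wS) = _
  have hb' : b⁻¹ = b := inv_eq_of_mul_eq_one_left hb
  have hb2 : ∀ g : B, b * (b * g) = g := fun g => by rw [← mul_assoc, hb, one_mul]
  rw [lift_mk_eq_wv, wS, wv_append]
  simp [wv, wT, wC', lv, mul_assoc, hb', hb2]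

theorem lift_wB2 : FreeGroup.lift ![a, b, t] (relA 2) = b * b := by
  change FreeGroup.lift ![a, b, t] (FreeGroup.mk wB2) = _
  rw [lift_mk_eq_wv]
  simp [wv, wB2, lv]

end Lift

end Vale.Agent.P246.Dis
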