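import Vale.Agent.P246.Dis.H302.Tab

/-! # Block A1, part 2: Fox calculus, computed with the table -/

namespace Vale.Agent.P246.Dis

open Vale.Agent.P246

section Gen

variable {G : Type} [Group G] {m : ℕ} (x : Fin m → G)

/-- the value of a letter -/
def lv (l : Fin m × Bool) : G := if l.2 then x l.1 else (x l.1)⁻¹

/-- the value of a word -/
def wv : List (Fin m × Bool) → G
  | [] => 1
  | l :: w => lv x l * wv w

theorem wv_append (u v : List (Fin m × Bool)) : wv x (u ++ v) = wv x u * wv x v := by
  induction u with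
  | nil => simp [wv]
  | cons l u ih => simp [wv, ih, mul_assoc]

theorem lift_mk_eq_wv (w : List (Fin m × Bool)) :
    FreeGroup.lift x (FreeGroup.mk w) = wv x w := by
  rw [FreeGroup.lift_mk]
  induction w with
  | nil => rfl
  | cons l w ih =>
    rw [List.map_cons, List.prod_cons, ih, wv, lv]
    cases l.2 <;> rfl

theorem foxWord_nil' : foxWord x [] = 0 := rfl

theorem foxWord_true' (i : Fin m) (w : List (Fin m × Bool)) (k : Fin m) :
    foxWord x ((i, true) :: w) k = (if k = i then 1 else 0) + elt (x i) * foxWord x w k := rfl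

theorem foxWord_false' (i : Fin m) (w : List (Fin m × Bool)) (k : Fin m) :
    foxWord x ((i, false) :: w) k = elt (x i)⁻¹ * (foxWord x w k - if k = i then 1 else 0) := rfl

theorem elt_mul_elt (g h : G) : elt g * elt h = elt (g * h) := by
  rw [elt, elt, elt, MonoidAlgebra.single_mul_single, one_mul]

theorem elt_one_eq : elt (1 : G) = 1 := rfl

theorem foxWord_append' (u v : List (Fin m × Bool)) (k : Fin m) :
    foxWord x (u ++ v) k = foxWord x u k + elt (wv x u) * foxWord x v k := by
  induction u with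
  | nil => simp [foxWord_nil', wv, elt_one_eq]
  | cons l u ih =>
    obtain ⟨i, c⟩ := l
    cases c
    · rw [List.cons_append, foxWord_false', foxWord_false', ih, wv, ← elt_mul_elt, lv]
      simp only [Bool.false_eq_true, if_false]
      noncomm_ring
    · rw [List.cons_append, foxWord_true', foxWord_true', ih, wv, ← elt_mul_elt, lv]
      simp only [if_true]
      noncomm_ring

theorem wv_invRev (w : List (Fin m × Bool)) : wv x (FreeGroup.invRev w) = (wv x w)⁻¹ := by
  rw [← lift_mk_eq_wv, ← lift_mk_eq_wv, ← FreeGroup.inv_mk, map_inv]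

theorem foxWord_invRev (w : List (Fin m × Bool)) (k : Fin m) :
    foxWord x (FreeGroup.invRev w) k = -(elt (wv x w)⁻¹ * foxWord x w k) := by
  induction w with
  | nil => simp [foxWord_nil']
  | cons l w ih =>
    rw [FreeGroup.invRev_cons, foxWord_append', ih, wv_invRev, wv, mul_inv_rev, ← elt_mul_elt]
    obtain ⟨i, c⟩ := l
    have h1 : ∀ g : G, (elt g⁻¹ : ZG G) * elt g = 1 := by
      intro g; rw [elt_mul_elt, inv_mul_cancel]; rfl
    have h2 : ∀ g : G, (elt g : ZG G) * elt g⁻¹ = 1 := by
      intro g; rw [elt_mul_elt, mul_inv_cancel]; rfl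
    cases c
    · have h3 : FreeGroup.invRev [(i, false)] = [(i, true)] := rfl
      rw [h3, foxWord_true', foxWord_false', foxWord_nil']
      have h4 : lv x (i, false) = (x i)⁻¹ := rfl
      rw [h4, inv_inv]
      simp only [Pi.zero_apply, mul_zero, add_zero]
      rw [mul_assoc, ← mul_assoc (elt (x i)), h2, one_mul]
      noncomm_ring
    · have h3 : FreeGroup.invRev [(i, true)] = [(i, false)] := rfl
      rw [h3, foxWord_true', foxWord_false', foxWord_nil']
      have h4 : lv x (i, true) = x i := rfl
      rw [h4]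
      simp only [Pi.zero_apply, zero_sub]
      rw [mul_add, mul_assoc, mul_assoc, ← mul_assoc (elt (x i)⁻¹) (elt (x i)), h1, one_mul]
      noncomm_ring

end Gen

section Refl

variable {G : Type} [Group G] (x : Fin 3 → G)

/-- the four permutations of the 48 elements given by the letters -/
def stp (i : ℕ) (l : Fin 3 × Bool) : ℕ :=
  if l.1 = 0 then (if l.2 then pa.getD i 0 else qa.getD i 0) else pb.getD i 0

/-- signed indices of the Fox derivative of `w`, started at `i` -/
def fx (k : Fin 3) : ℕ → List (Fin 3 × Bool) → List (Bool × ℕ)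
  | _, [] => []
  | i, (l :: w) =>
    if k = l.1 then (if l.2 then (true, i) else (false, stp i l)) :: fx k (stp i l) w
    else fx k (stp i l) w

/-- the value of a list of signed indices -/
noncomputable def sval : List (Bool × ℕ) → ZG G
  | [] => 0
  | p :: L => (if p.1 then elt (tb (x 0) (x 1) p.2) else - elt (tb (x 0) (x 1) p.2)) + sval L

theorem sval_append (L M : List (Bool × ℕ)) : sval x (L ++ M) = sval x L + sval x M := by
  induction L with
  | nil => simp [sval]
  | cons p L ih => simp [sval, ih, add_assoc]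

/-- change all signs -/
def sneg (L : List (Bool × ℕ)) : List (Bool × ℕ) := L.map fun p => (!p.1, p.2)

theorem sval_sneg (L : List (Bool × ℕ)) : sval x (sneg L) = - sval x L := by
  induction L with
  | nil => simp [sval, sneg]
  | cons p L ih =>
    have h : sneg (p :: L) = (!p.1, p.2) :: sneg L := rfl
    rw [h, sval, ih, sval]
    obtain ⟨c, i⟩ := p
    cases c <;> simp <;> abel

/-- the coefficient of the `j`-th element -/
def cf (j : ℕ) : List (Bool × ℕ) → ℤ
  | [] => 0
  | p :: L => (if p.2 = j then (if p.1 then 1 else -1) else 0) + cf j L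

theorem sval_eq (L : List (Bool × ℕ)) (hL : ∀ p ∈ L, p.2 < 48) :
    sval x L = ∑ j ∈ Finset.range 48, cf j L • elt (tb (x 0) (x 1) j) := by
  induction L with
  | nil => simp [sval, cf]
  | cons p L ih =>
    rw [sval, ih (fun q hq => hL q (List.mem_cons_of_mem _ hq))]
    simp only [cf, add_smul, Finset.sum_add_distrib]
    congr 1
    rw [Finset.sum_eq_single p.2]
    · obtain ⟨c, i⟩ := p
      cases c <;> simp
    · intro j _ hj
      rw [if_neg (Ne.symm hj), zero_smul]
    · intro h
      exact absurd (Finset.mem_range.2 (hL p List.mem_cons_self)) h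

theorem sval_congr (L M : List (Bool × ℕ)) (hL : ∀ p ∈ L, p.2 < 48) (hM : ∀ p ∈ M, p.2 < 48)
    (h : ∀ j < 48, cf j L = cf j M) : sval x L = sval x M := by
  rw [sval_eq x L hL, sval_eq x M hM]
  exact Finset.sum_congr rfl fun j hj => by rw [h j (Finset.mem_range.1 hj)]

variable (hr : ∀ g : G, g * x 0 * x 1 * x 0 * x 1 * x 0 * x 1 = g * x 1 * x 0 * x 0)
  (hb : ∀ g : G, g * x 1 * x 1 = g)

include hr hb in
theorem stp_spec (i : ℕ) (hi : i < 48) (l : Fin 3 × Bool) (hl : l.1 ≠ 2) :
    tb (x 0) (x 1) i * lv x l = tb (x 0) (x 1) (stp i l) ∧ stp i l < 48 := by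
  obtain ⟨ha, hB⟩ := table (x 0) (x 1) hr hb
  have hpa : ∀ i < 48, pa.getD i 0 < 48 ∧ qa.getD i 0 < 48 ∧ pb.getD i 0 < 48 ∧
    pa.getD (qa.getD i 0) 0 = i ∧ pb.getD (pb.getD i 0) 0 = i := by decide
  obtain ⟨k, c⟩ := l
  obtain ⟨h1, h2, h3, h4, h5⟩ := hpa i hi
  have hbi : (x 1)⁻¹ = x 1 := by
    have := hb (x 1)⁻¹
    rw [inv_mul_cancel, one_mul] at this
    exact this.symm
  fin_cases k
  · cases c
    · refine ⟨?_, h2⟩
      change tb (x 0) (x 1) i * (x 0)⁻¹ = tb (x 0) (x 1) (qa.getD i 0)
      rw [mul_inv_eq_iff_eq_mul, ha _ h2, h4]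
    · exact ⟨ha i hi, h1⟩
  · cases c
    · refine ⟨?_, h3⟩
      change tb (x 0) (x 1) i * (x 1)⁻¹ = tb (x 0) (x 1) (pb.getD i 0)
      rw [hbi, hB i hi]
    · exact ⟨hB i hi, h3⟩
  · exact absurd rfl hl

include hr hb in
theorem fx_spec (k : Fin 3) (w : List (Fin 3 × Bool)) (hw : ∀ l ∈ w, l.1 ≠ 2) :
    ∀ i < 48, elt (tb (x 0) (x 1) i) * foxWord x w k = sval x (fx k i w) := by
  induction w with
  | nil => intro i _; rw [foxWord_nil']; simp [fx, sval]
  | cons l w ih =>
    intro i hi
    have ih' := ih fun l' hl' => hw l' (List.mem_cons_of_mem _ hl')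
    obtain ⟨h1, h2⟩ := stp_spec x hr hb i hi l (hw l List.mem_cons_self)
    have h3 := ih' _ h2
    rw [← h1, ← elt_mul_elt, mul_assoc] at h3
    obtain ⟨j, c⟩ := l
    rw [fx]
    cases c
    · rw [foxWord_false']
      have h4 : elt (lv x (j, false)) = elt (x j)⁻¹ := rfl
      rw [h4] at h3
      by_cases hk : k = j
      · have h5 : elt (tb (x 0) (x 1) i) * elt (x j)⁻¹ = elt (tb (x 0) (x 1) (stp i (j, false))) := by
          rw [elt_mul_elt, ← h1]; rfl
        rw [if_pos hk, if_pos hk, if_neg Bool.false_ne_true, sval, if_neg Bool.false_ne_true,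
          ← h3, ← h5]
        noncomm_ring
      · rw [if_neg hk, if_neg hk, sub_zero]
        exact h3
    · rw [foxWord_true']
      have h4 : elt (lv x (j, true)) = elt (x j) := rfl
      rw [h4] at h3
      by_cases hk : k = j
      · rw [if_pos hk, if_pos hk, if_pos rfl, sval, if_pos rfl, ← h3]
        noncomm_ring
      · rw [if_neg hk, if_neg hk, zero_add]
        exact h3

/-- the list for `y * foxWord x w k`, where `y` is given by signed indices -/
def fxs (k : Fin 3) (w : List (Fin 3 × Bool)) : List (Bool × ℕ) → List (Bool × ℕ)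
  | [] => []
  | p :: L => (if p.1 then fx k p.2 w else sneg (fx k p.2 w)) ++ fxs k w L

include hr hb in
theorem fxs_spec (k : Fin 3) (w : List (Fin 3 × Bool)) (hw : ∀ l ∈ w, l.1 ≠ 2)
    (L : List (Bool × ℕ)) (hL : ∀ p ∈ L, p.2 < 48) :
    sval x L * foxWord x w k = sval x (fxs k w L) := by
  induction L with
  | nil => simp [sval, fxs]
  | cons p L ih =>
    rw [sval, fxs, sval_append, ← ih fun q hq => hL q (List.mem_cons_of_mem _ hq), add_mul]
    congr 1
    have h := fx_spec x hr hb k w hw p.2 (hL p List.mem_cons_self)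
    obtain ⟨c, i⟩ := p
    cases c
    · simp only [Bool.false_eq_true, if_false]
      rw [sval_sneg, ← h, neg_mul]
    · simp only [if_true]
      exact h

end Refl

end Vale.Agent.P246.Dis
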