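import Vale.Agent.P246.Defs0

/-! # Block A1, part 1: the 48 elements of `⟨a, b | (ab)^3 = b a^2, b^2⟩` -/

namespace Vale.Agent.P246.Dis

/-- representatives of the 48 elements -/
def tb {G : Type} [Group G] (a b : G) : ℕ → G
  | 0 => 1
  | 1 => 1 * a
  | 2 => 1 * b
  | 3 => 1 * a * a
  | 4 => 1 * a * b
  | 5 => 1 * b * a
  | 6 => 1 * a * a * a
  | 7 => 1 * a * a * b
  | 8 => 1 * a * b * a
  | 9 => 1 * b * a * a
  | 10 => 1 * b * a * b
  | 11 => 1 * a * a * a * a
  | 12 => 1 * a * a * a * b
  | 13 => 1 * a * a * b * a
  | 14 => 1 * a * b * a * a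
  | 15 => 1 * a * b * a * b
  | 16 => 1 * b * a * a * b
  | 17 => 1 * b * a * b * a
  | 18 => 1 * a * a * a * a * a
  | 19 => 1 * a * a * a * a * b
  | 20 => 1 * a * a * a * b * a
  | 21 => 1 * a * a * b * a * a
  | 22 => 1 * a * a * b * a * b
  | 23 => 1 * a * b * a * a * b
  | 24 => 1 * b * a * a * b * a
  | 25 => 1 * b * a * b * a * a
  | 26 => 1 * b * a * b * a * b
  | 27 => 1 * a * a * a * a * a * b
  | 28 => 1 * a * a * a * a * b * a
  | 29 => 1 * a * a * a * b * a * a
  | 30 => 1 * a * a * a * b * a * b
  | 31 => 1 * a * a * b * a * a * b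
  | 32 => 1 * a * b * a * a * b * a
  | 33 => 1 * b * a * a * b * a * a
  | 34 => 1 * b * a * a * b * a * b
  | 35 => 1 * b * a * b * a * a * b
  | 36 => 1 * a * a * a * a * a * b * a
  | 37 => 1 * a * a * a * a * b * a * a
  | 38 => 1 * a * a * a * b * a * a * b
  | 39 => 1 * a * a * b * a * a * b * a
  | 40 => 1 * a * b * a * a * b * a * a
  | 41 => 1 * a * b * a * a * b * a * b
  | 42 => 1 * b * a * b * a * a * b * a
  | 43 => 1 * a * a * a * a * b * a * a * b
  | 44 => 1 * a * a * a * b * a * a * b * a
  | 45 => 1 * a * a * b * a * a * b * a * b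
  | 46 => 1 * b * a * b * a * a * b * a * a
  | 47 => 1 * b * a * b * a * a * b * a * b
  | _ => 1

/-- right multiplication by `a` on the 48 elements -/
def pa : List ℕ := [1, 3, 5, 6, 8, 9, 11, 13, 14, 12, 17, 18, 20, 21, 19, 16, 24, 25, 0, 28, 29, 27, 23, 32, 33, 30, 7, 36, 37, 2, 31, 39, 40, 38, 35, 42, 26, 4, 44, 10, 43, 34, 46, 47, 15, 41, 45, 22]
/-- right multiplication by `b` on the 48 elements -/
def pb : List ℕ := [2, 4, 0, 7, 1, 10, 12, 3, 15, 16, 5, 19, 6, 22, 23, 8, 9, 26, 27, 11, 30, 31, 13, 14, 34, 35, 17, 18, 33, 38, 20, 21, 41, 28, 24, 25, 40, 43, 29, 45, 36, 32, 47, 37, 46, 39, 44, 42]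
/-- right multiplication by `a⁻¹` on the 48 elements -/
def qa : List ℕ := [18, 0, 29, 1, 37, 2, 3, 26, 4, 5, 39, 6, 9, 7, 8, 44, 15, 10, 11, 14, 12, 13, 47, 22, 16, 17, 36, 21, 19, 20, 25, 30, 23, 24, 41, 34, 27, 28, 33, 31, 32, 45, 35, 40, 38, 46, 42, 43]

theorem table {G : Type} [Group G] (a b : G) (hr : ∀ g : G, g * a * b * a * b * a * b = g * b * a * a)
    (hb : ∀ g : G, g * b * b = g) :
    (∀ i < 48, tb a b i * a = tb a b (pa.getD i 0)) ∧ (∀ i < 48, tb a b i * b = tb a b (pb.getD i 0)) := by
  have ea0 : tb a b 0 * a = tb a b 1 := rfl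
  have eb0 : tb a b 0 * b = tb a b 2 := rfl
  have ea1 : tb a b 1 * a = tb a b 3 := rfl
  have eb1 : tb a b 1 * b = tb a b 4 := rfl
  have ea2 : tb a b 2 * a = tb a b 5 := rfl
  have ea3 : tb a b 3 * a = tb a b 6 := rfl
  have eb3 : tb a b 3 * b = tb a b 7 := rfl
  have ea4 : tb a b 4 * a = tb a b 8 := rfl
  have ea5 : tb a b 5 * a = tb a b 9 := rfl
  have eb5 : tb a b 5 * b = tb a b 10 := rfl
  have ea6 : tb a b 6 * a = tb a b 11 := rfl
  have eb6 : tb a b 6 * b = tb a b 12 := rfl
  have ea7 : tb a b 7 * a = tb a b 13 := rfl
  have ea8 : tb a b 8 * a = tb a b 14 := rfl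
  have eb8 : tb a b 8 * b = tb a b 15 := rfl
  have eb9 : tb a b 9 * b = tb a b 16 := rfl
  have ea10 : tb a b 10 * a = tb a b 17 := rfl
  have ea11 : tb a b 11 * a = tb a b 18 := rfl
  have eb11 : tb a b 11 * b = tb a b 19 := rfl
  have ea12 : tb a b 12 * a = tb a b 20 := rfl
  have ea13 : tb a b 13 * a = tb a b 21 := rfl
  have eb13 : tb a b 13 * b = tb a b 22 := rfl
  have eb14 : tb a b 14 * b = tb a b 23 := rfl
  have ea16 : tb a b 16 * a = tb a b 24 := rfl
  have ea17 : tb a b 17 * a = tb a b 25 := rfl
  have eb17 : tb a b 17 * b = tb a b 26 := rfl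
  have eb18 : tb a b 18 * b = tb a b 27 := rfl
  have ea19 : tb a b 19 * a = tb a b 28 := rfl
  have ea20 : tb a b 20 * a = tb a b 29 := rfl
  have eb20 : tb a b 20 * b = tb a b 30 := rfl
  have eb21 : tb a b 21 * b = tb a b 31 := rfl
  have ea23 : tb a b 23 * a = tb a b 32 := rfl
  have ea24 : tb a b 24 * a = tb a b 33 := rfl
  have eb24 : tb a b 24 * b = tb a b 34 := rfl
  have eb25 : tb a b 25 * b = tb a b 35 := rfl
  have ea27 : tb a b 27 * a = tb a b 36 := rfl
  have ea28 : tb a b 28 * a = tb a b 37 := rfl
  have eb29 : tb a b 29 * b = tb a b 38 := rfl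
  have ea31 : tb a b 31 * a = tb a b 39 := rfl
  have ea32 : tb a b 32 * a = tb a b 40 := rfl
  have eb32 : tb a b 32 * b = tb a b 41 := rfl
  have ea35 : tb a b 35 * a = tb a b 42 := rfl
  have eb37 : tb a b 37 * b = tb a b 43 := rfl
  have ea38 : tb a b 38 * a = tb a b 44 := rfl
  have eb39 : tb a b 39 * b = tb a b 45 := rfl
  have ea42 : tb a b 42 * a = tb a b 46 := rfl
  have eb42 : tb a b 42 * b = tb a b 47 := rfl
  have eb2 : tb a b 2 * b = tb a b 0 := by
    have h := hb (tb a b 0)
    simp only [eb0] at h
    exact h
  have eb4 : tb a b 4 * b = tb a b 1 := by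
    have h := hb (tb a b 1)
    simp only [eb1] at h
    exact h
  have eb7 : tb a b 7 * b = tb a b 3 := by
    have h := hb (tb a b 3)
    simp only [eb3] at h
    exact h
  have eb10 : tb a b 10 * b = tb a b 5 := by
    have h := hb (tb a b 5)
    simp only [eb5] at h
    exact h
  have eb12 : tb a b 12 * b = tb a b 6 := by
    have h := hb (tb a b 6)
    simp only [eb6] at h
    exact h
  have eb15 : tb a b 15 * b = tb a b 8 := by
    have h := hb (tb a b 8)
    simp only [eb8] at h
    exact h
  have eb16 : tb a b 16 * b = tb a b 9 := by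
    have h := hb (tb a b 9)
    simp only [eb9] at h
    exact h
  have eb19 : tb a b 19 * b = tb a b 11 := by
    have h := hb (tb a b 11)
    simp only [eb11] at h
    exact h
  have eb22 : tb a b 22 * b = tb a b 13 := by
    have h := hb (tb a b 13)
    simp only [eb13] at h
    exact h
  have eb23 : tb a b 23 * b = tb a b 14 := by
    have h := hb (tb a b 14)
    simp only [eb14] at h
    exact h
  have eb26 : tb a b 26 * b = tb a b 17 := by
    have h := hb (tb a b 17)
    simp only [eb17] at h
    exact h
  have eb27 : tb a b 27 * b = tb a b 18 := by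
    have h := hb (tb a b 18)
    simp only [eb18] at h
    exact h
  have eb30 : tb a b 30 * b = tb a b 20 := by
    have h := hb (tb a b 20)
    simp only [eb20] at h
    exact h
  have eb31 : tb a b 31 * b = tb a b 21 := by
    have h := hb (tb a b 21)
    simp only [eb21] at h
    exact h
  have eb34 : tb a b 34 * b = tb a b 24 := by
    have h := hb (tb a b 24)
    simp only [eb24] at h
    exact h
  have eb35 : tb a b 35 * b = tb a b 25 := by
    have h := hb (tb a b 25)
    simp only [eb25] at h
    exact h
  have eb38 : tb a b 38 * b = tb a b 29 := by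
    have h := hb (tb a b 29)
    simp only [eb29] at h
    exact h
  have eb41 : tb a b 41 * b = tb a b 32 := by
    have h := hb (tb a b 32)
    simp only [eb32] at h
    exact h
  have eb43 : tb a b 43 * b = tb a b 37 := by
    have h := hb (tb a b 37)
    simp only [eb37] at h
    exact h
  have eb45 : tb a b 45 * b = tb a b 39 := by
    have h := hb (tb a b 39)
    simp only [eb39] at h
    exact h
  have eb47 : tb a b 47 * b = tb a b 42 := by
    have h := hb (tb a b 42)
    simp only [eb42] at h
    exact h
  have ea15 : tb a b 15 * a = tb a b 16 := by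
    have h := hr (tb a b 0)
    simp only [ea0, ea2, ea4, ea5, eb0, eb1, eb8] at h
    have h := mul_right_cancel (h.trans eb16.symm)
    exact h
  have ea22 : tb a b 22 * a = tb a b 23 := by
    have h := hr (tb a b 1)
    simp only [ea1, ea4, ea7, ea8, eb1, eb13, eb3] at h
    have h := mul_right_cancel (h.trans eb23.symm)
    exact h
  have ea26 : tb a b 26 * a = tb a b 7 := by
    have h := hr (tb a b 2)
    simp only [ea0, ea1, ea10, ea2, eb17, eb2, eb5] at h
    have h := mul_right_cancel (h.trans eb7.symm)
    exact h
  have ea30 : tb a b 30 * a = tb a b 31 := by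
    have h := hr (tb a b 3)
    simp only [ea12, ea13, ea3, ea7, eb20, eb3, eb6] at h
    have h := mul_right_cancel (h.trans eb31.symm)
    exact h
  have ea9 : tb a b 9 * a = tb a b 12 := by
    have h := hr (tb a b 4)
    simp only [ea1, ea15, ea3, ea4, eb16, eb4, eb8] at h
    have h := mul_right_cancel (h.trans eb12.symm)
    exact h
  have ea34 : tb a b 34 * a = tb a b 35 := by
    have h := hr (tb a b 5)
    simp only [ea10, ea16, ea17, ea5, eb24, eb5, eb9] at h
    have h := mul_right_cancel (h.trans eb35.symm)
    exact h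
  have ea14 : tb a b 14 * a = tb a b 19 := by
    have h := hr (tb a b 7)
    simp only [ea22, ea3, ea6, ea7, eb13, eb23, eb7] at h
    have h := mul_right_cancel (h.trans eb19.symm)
    exact h
  have ea41 : tb a b 41 * a = tb a b 34 := by
    have h := hr (tb a b 8)
    simp only [ea15, ea16, ea23, ea8, eb14, eb32, eb8] at h
    have h := mul_right_cancel (h.trans eb34.symm)
    exact h
  have eb28 : tb a b 28 * b = tb a b 33 := by
    have h := hr (tb a b 9)
    simp only [ea16, ea19, ea24, ea6, ea9, eb11, eb12, eb9] at h
    exact h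
  have ea21 : tb a b 21 * a = tb a b 27 := by
    have h := hr (tb a b 12)
    simp only [ea11, ea12, ea30, ea6, eb12, eb20, eb31] at h
    have h := mul_right_cancel (h.trans eb27.symm)
    exact h
  have ea45 : tb a b 45 * a = tb a b 41 := by
    have h := hr (tb a b 13)
    simp only [ea13, ea22, ea23, ea31, eb13, eb21, eb39] at h
    have h := mul_right_cancel (h.trans eb41.symm)
    exact h
  have eb36 : tb a b 36 * b = tb a b 40 := by
    have h := hr (tb a b 14)
    simp only [ea11, ea14, ea23, ea27, ea32, eb14, eb18, eb19] at h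
    exact h
  have ea25 : tb a b 25 * a = tb a b 30 := by
    have h := hr (tb a b 16)
    simp only [ea12, ea16, ea34, ea9, eb16, eb24, eb35] at h
    have h := mul_right_cancel (h.trans eb30.symm)
    exact h
  have ea47 : tb a b 47 * a = tb a b 22 := by
    have h := hr (tb a b 17)
    simp only [ea17, ea26, ea35, ea7, eb17, eb25, eb42] at h
    have h := mul_right_cancel (h.trans eb22.symm)
    exact h
  have eb33 : tb a b 33 * b = tb a b 28 := by
    have h := hr (tb a b 23)
    simp only [ea14, ea19, ea23, ea24, ea41, eb23, eb32, eb34] at h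
    exact h
  have ea43 : tb a b 43 * a = tb a b 47 := by
    have h := hr (tb a b 24)
    simp only [ea24, ea28, ea34, ea35, eb24, eb33, eb37] at h
    have h := mul_right_cancel (h.trans eb47.symm)
    exact h
  have eb44 : tb a b 44 * b = tb a b 46 := by
    have h := hr (tb a b 25)
    simp only [ea20, ea25, ea35, ea38, ea42, eb25, eb29, eb30] at h
    exact h
  have eb40 : tb a b 40 * b = tb a b 36 := by
    have h := hr (tb a b 31)
    simp only [ea21, ea27, ea31, ea32, ea45, eb31, eb39, eb41] at h
    exact h
  have ea36 : tb a b 36 * a = tb a b 26 := by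
    have h := hr (tb a b 32)
    simp only [ea32, ea34, ea41, eb32, eb40] at h
    have h := mul_right_cancel (h.trans eb25.symm)
    have h := mul_right_cancel (h.trans ea17.symm)
    have h := mul_right_cancel (h.trans eb26.symm)
    exact h
  have ea33 : tb a b 33 * a = tb a b 38 := by
    have h := hr (tb a b 34)
    have h := h.symm
    simp only [ea20, ea24, ea25, ea34, eb29, eb30, eb34, eb35] at h
    exact h
  have ea40 : tb a b 40 * a = tb a b 43 := by
    have h := hr (tb a b 36)
    have h := h.symm
    simp only [ea17, ea35, ea36, eb25, eb26, eb36, eb42] at h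
    have h := mul_right_cancel (h.trans ea43.symm)
    exact h
  have ea37 : tb a b 37 * a = tb a b 4 := by
    have h := hr (tb a b 37)
    simp only [ea43, ea47, eb37] at h
    have h := mul_right_cancel (h.trans eb13.symm)
    have h := mul_right_cancel (h.trans ea7.symm)
    have h := mul_right_cancel (h.trans eb3.symm)
    have h := mul_right_cancel (h.trans ea1.symm)
    have h := mul_right_cancel (h.trans eb4.symm)
    exact h
  have ea39 : tb a b 39 * a = tb a b 10 := by
    have h := hr (tb a b 39)
    simp only [ea41, ea45, eb39] at h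
    have h := mul_right_cancel (h.trans eb24.symm)
    have h := mul_right_cancel (h.trans ea16.symm)
    have h := mul_right_cancel (h.trans eb9.symm)
    have h := mul_right_cancel (h.trans ea5.symm)
    have h := mul_right_cancel (h.trans eb10.symm)
    exact h
  have eb46 : tb a b 46 * b = tb a b 44 := by
    have h := hb (tb a b 44)
    simp only [eb44] at h
    exact h
  have ea46 : tb a b 46 * a = tb a b 45 := by
    have h := hr (tb a b 47)
    have h := h.symm
    simp only [ea13, ea31, ea42, ea47, eb21, eb22, eb39, eb47] at h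
    exact h
  have ea18 : tb a b 18 * a = tb a b 0 := by
    have h := hr (tb a b 18)
    simp only [ea27, ea36, eb18] at h
    have h := mul_right_cancel (h.trans eb17.symm)
    have h := mul_right_cancel (h.trans ea10.symm)
    have h := mul_right_cancel (h.trans eb5.symm)
    have h := mul_right_cancel (h.trans ea2.symm)
    have h := mul_right_cancel (h.trans eb0.symm)
    exact h
  have ea29 : tb a b 29 * a = tb a b 2 := by
    have h := hr (tb a b 19)
    simp only [ea11, ea18, ea19, ea33, eb19, eb28, eb38] at h
    have h := mul_right_cancel (h.trans eb2.symm)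
    exact h
  have ea44 : tb a b 44 * a = tb a b 15 := by
    have h := hr (tb a b 29)
    have h := h.symm
    simp only [ea0, ea29, ea38, ea4, eb1, eb2, eb29, eb8] at h
    exact h
  constructor
  · intro i hi
    interval_cases i
    · exact ea0
    · exact ea1
    · exact ea2
    · exact ea3
    · exact ea4
    · exact ea5
    · exact ea6
    · exact ea7
    · exact ea8
    · exact ea9
    · exact ea10
    · exact ea11
    · exact ea12
    · exact ea13
    · exact ea14
    · exact ea15
    · exact ea16
    · exact ea17
    · exact ea18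
    · exact ea19
    · exact ea20
    · exact ea21
    · exact ea22
    · exact ea23
    · exact ea24
    · exact ea25
    · exact ea26
    · exact ea27
    · exact ea28
    · exact ea29
    · exact ea30
    · exact ea31
    · exact ea32
    · exact ea33
    · exact ea34
    · exact ea35
    · exact ea36
    · exact ea37
    · exact ea38
    · exact ea39
    · exact ea40
    · exact ea41
    · exact ea42
    · exact ea43
    · exact ea44
    · exact ea45
    · exact ea46
    · exact ea47
  · intro i hi
    interval_cases i
    · exact eb0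
    · exact eb1
    · exact eb2
    · exact eb3
    · exact eb4
    · exact eb5
    · exact eb6
    · exact eb7
    · exact eb8
    · exact eb9
    · exact eb10
    · exact eb11
    · exact eb12
    · exact eb13
    · exact eb14
    · exact eb15
    · exact eb16
    · exact eb17
    · exact eb18
    · exact eb19
    · exact eb20
    · exact eb21
    · exact eb22
    · exact eb23
    · exact eb24
    · exact eb25
    · exact eb26
    · exact eb27
    · exact eb28
    · exact eb29
    · exact eb30
    · exact eb31
    · exact eb32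
    · exact eb33
    · exact eb34
    · exact eb35
    · exact eb36
    · exact eb37
    · exact eb38
    · exact eb39
    · exact eb40
    · exact eb41
    · exact eb42
    · exact eb43
    · exact eb44
    · exact eb45
    · exact eb46
    · exact eb47
end Vale.Agent.P246.Dis
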